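import Vale.Agent.P286EX.Spec
import Vale.Agent.P286EC.Gen

/-!
# Families of `D`-modules with an infinitesimal action
-/

set_option linter.all false

namespace Vale.Agent.P286EX

open CategoryTheory Matrix TensorProduct Vale.Agent.P286 Vale.Agent.P286.St Vale.Agent.P286.H847
  Vale.Agent.P286.H710 Vale.Agent.P286E

noncomputable section

variable {T : TSite}

/-- The adjoint matrices are orthogonal automorphisms of the Lie algebra. -/
structure GS.Ok (S : GS T) : Prop where
  ad_eps : ∀ {X Y : T.C} (φ : X ⟶ Y) (a b d : Fin 3), ∑ c, eps a b c • S.ad φ d c =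
    ∑ a', ∑ b', eps a' b' d • (S.ad φ a' a * S.ad φ b' b)
  orth : ∀ {X Y : T.C} (φ : X ⟶ Y), (S.ad φ)ᵀ * S.ad φ = 1
  der : ∀ {X Y : T.C} (φ : X ⟶ Y) (w : Derivation ℂ (T.R Y) (T.R Y)) (f b : Fin 3),
    w (S.ad φ f b) =
      ∑ e, w.liftKaehlerDifferential (S.th φ e) * ∑ a, (S.κ * eps e a f) • S.ad φ a b

/-- A family of `D`-modules with an action `l` of the Lie algebra, whose transition maps are
horizontal up to the twist and up to `θ^a l_a`. -/
structure SL (S : GS T) : Type 1 where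
  M : T.C → Type
  [grp : ∀ X, AddCommGroup (M X)]
  [mc : ∀ X, Module ℂ (M X)]
  [mr : ∀ X, Module (T.R X) (M X)]
  [tow : ∀ X, IsScalarTower ℂ (T.R X) (M X)]
  C : ∀ X, H710.FC ℂ (T.R X) (M X)
  l : ∀ X, Fin 3 → (M X →ₗ[T.R X] M X)
  l_act : ∀ X a v x, l X a ((C X).act v x) = (C X).act v (l X a x)
  l_br : ∀ X a b x, l X a (l X b x) - l X b (l X a x) = ∑ c, (S.κ * eps a b c) • l X c x
  t : ∀ {X Y : T.C}, (X ⟶ Y) → (M X →ₗ[ℂ] M Y)
  t_smul : ∀ {X Y : T.C} (φ : X ⟶ Y) (a : T.R X) x, t φ (a • x) = T.f φ a • t φ x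
  t_id : ∀ (X : T.C) x, t (𝟙 X) x = x
  t_comp : ∀ {X Y Z : T.C} (φ : X ⟶ Y) (ψ : Y ⟶ Z) x, t (φ ≫ ψ) x = t ψ (t φ x)
  t_l : ∀ {X Y : T.C} (φ : X ⟶ Y) b x, t φ (l X b x) = ∑ a, S.ad φ a b • l Y a (t φ x)
  t_act : ∀ {X Y : T.C} (φ : X ⟶ Y) (w : Derivation ℂ (T.R Y) (T.R Y)) (n : ℕ)
    (c : Fin n → T.R Y) (v : Fin n → Derivation ℂ (T.R X) (T.R X)),
    (∀ a, w (T.f φ a) = ∑ k, c k * T.f φ (v k a)) → ∀ x,
    (C Y).act w (t φ x) = ∑ k, c k • t φ ((C X).act (v k) x) -
      (algebraMap ℂ (T.R Y) T.s * Ring.inverse (T.dl φ) * w (T.dl φ)) • t φ x +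
      ∑ a, w.liftKaehlerDifferential (S.th φ a) • l Y a (t φ x)

attribute [instance] SL.grp SL.mc SL.mr SL.tow

/-- A representation of the gauge data. -/
structure RS (S : GS T) (n : ℕ) : Type 1 where
  r : ∀ {X Y : T.C}, (X ⟶ Y) → Matrix (Fin n) (Fin n) (T.R Y)
  dr : Fin 3 → Matrix (Fin n) (Fin n) ℂ
  r_id : ∀ X : T.C, r (𝟙 X) = 1
  r_comp : ∀ {X Y Z : T.C} (φ : X ⟶ Y) (ψ : Y ⟶ Z), r (φ ≫ ψ) = r ψ * (r φ).map (T.f ψ)
  br : ∀ a b, dr a * dr b - dr b * dr a = ∑ c, (S.κ * eps a b c) • dr c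
  r_dr : ∀ {X Y : T.C} (φ : X ⟶ Y) (b : Fin 3), r φ * (dr b).map (algebraMap ℂ (T.R Y)) =
    ∑ a, S.ad φ a b • ((dr a).map (algebraMap ℂ (T.R Y)) * r φ)
  der : ∀ {X Y : T.C} (φ : X ⟶ Y) (w : Derivation ℂ (T.R Y) (T.R Y)), (r φ).map w =
    ∑ a, w.liftKaehlerDifferential (S.th φ a) • ((dr a).map (algebraMap ℂ (T.R Y)) * r φ)

section Fc

variable {A M : Type} [CommRing A] [Algebra ℂ A] [AddCommGroup M] [Module ℂ M] [Module A M]
  [IsScalarTower ℂ A M]

/-- The action of a vector field as a linear map. -/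
def fcL (C : H710.FC ℂ A M) (v : Derivation ℂ A A) : M →ₗ[ℂ] M where
  toFun := C.act v
  map_add' := C.act_add v
  map_smul' c x := by
    rw [← algebraMap_smul A c x, C.leibniz, Derivation.map_algebraMap, zero_smul, zero_add,
      algebraMap_smul]
    rfl

theorem fcL_apply (C : H710.FC ℂ A M) (v : Derivation ℂ A A) (x : M) : fcL C v x = C.act v x := rfl

/-- A matrix of functions acting on columns. -/
def mv {n : ℕ} (m : Matrix (Fin n) (Fin n) A) : (Fin n → M) →ₗ[A] (Fin n → M) where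
  toFun p l := ∑ k, m l k • p k
  map_add' p q := funext fun l => by simp only [Pi.add_apply, smul_add, Finset.sum_add_distrib]
  map_smul' a p := funext fun l => by
    simp only [Pi.smul_apply, RingHom.id_apply, Finset.smul_sum, smul_comm a]

variable {n : ℕ}

theorem mv_apply (m : Matrix (Fin n) (Fin n) A) (p : Fin n → M) (l : Fin n) :
    mv m p l = ∑ k, m l k • p k := rfl

theorem mv_mul (m m' : Matrix (Fin n) (Fin n) A) (p : Fin n → M) :
    mv (m * m') p = mv m (mv m' p) := funext fun l => by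
  simp only [mv_apply, Matrix.mul_apply, Finset.sum_smul, Finset.smul_sum, smul_smul]
  exact Finset.sum_comm

theorem mv_one (p : Fin n → M) : mv (1 : Matrix (Fin n) (Fin n) A) p = p := funext fun l => by
  simp [mv_apply, one_apply]

theorem mv_sub (m m' : Matrix (Fin n) (Fin n) A) (p : Fin n → M) :
    mv (m - m') p = mv m p - mv m' p := funext fun l => by
  simp only [mv_apply, Matrix.sub_apply, sub_smul, Finset.sum_sub_distrib, Pi.sub_apply]

theorem mv_sum {ι : Type} [Fintype ι] (c : ι → A) (m : ι → Matrix (Fin n) (Fin n) A)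
    (p : Fin n → M) : mv (∑ a, c a • m a) p = ∑ a, c a • mv (m a) p := funext fun l => by
  simp only [mv_apply, Matrix.sum_apply, Matrix.smul_apply, Finset.sum_smul, Finset.sum_apply,
    Pi.smul_apply, Finset.smul_sum, smul_assoc]
  exact Finset.sum_comm

end Fc

variable {S : GS T} {n : ℕ}

/-- The constant matrix. -/
abbrev RS.dm (U : RS S n) (X : T.C) (a : Fin 3) : Matrix (Fin n) (Fin n) (T.R X) :=
  (U.dr a).map (algebraMap ℂ (T.R X))

theorem RS.dm_br (U : RS S n) (X : T.C) (a b : Fin 3) : U.dm X a * U.dm X b - U.dm X b * U.dm X a =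
    ∑ c, algebraMap ℂ (T.R X) (S.κ * eps a b c) • U.dm X c := by
  have h := congrArg (algebraMap ℂ (T.R X)).mapMatrix (U.br a b)
  rw [map_sub, map_mul, map_mul, map_sum] at h
  refine h.trans (Finset.sum_congr rfl fun c _ => Matrix.ext fun p q => ?_)
  exact map_mul (algebraMap ℂ (T.R X)) _ _

namespace SL

variable (L : SL S) (U : RS S n)

/-- A linear map applied to the components. -/
abbrev cw {R M N : Type} [Semiring R] [AddCommMonoid M] [AddCommMonoid N] [Module R M] [Module R N]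
    (n : ℕ) (f : M →ₗ[R] N) : (Fin n → M) →ₗ[R] (Fin n → N) := f.compLeft (Fin n)

theorem cw_mv {X : T.C} (f : L.M X →ₗ[T.R X] L.M X) (m : Matrix (Fin n) (Fin n) (T.R X))
    (p : Fin n → L.M X) : cw n f (mv m p) = mv m (cw n f p) := funext fun l => by
  simp [mv_apply]

theorem t_mv {X Y : T.C} (φ : X ⟶ Y) (m : Matrix (Fin n) (Fin n) (T.R X)) (p : Fin n → L.M X) :
    cw n (L.t φ) (mv m p) = mv (m.map (T.f φ)) (cw n (L.t φ) p) := funext fun l => by
  simp [mv_apply, L.t_smul]

theorem act_mv {X : T.C} (w : Derivation ℂ (T.R X) (T.R X)) (m : Matrix (Fin n) (Fin n) (T.R X))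
    (p : Fin n → L.M X) : cw n (fcL (L.C X) w) (mv m p) =
      mv (m.map w) p + mv m (cw n (fcL (L.C X) w) p) := funext fun l => by
  simp [mv_apply, fcL_apply, (L.C X).leibniz, Finset.sum_add_distrib]

theorem dm_map {X Y : T.C} (φ : X ⟶ Y) (a : Fin 3) : (U.dm X a).map (T.f φ) = U.dm Y a :=
  map_cm _ _

/-- The tensor product with a representation. -/
def rep : SL S where
  M X := Fin n → L.M X
  C X := ⟨fun v => cw n (fcL (L.C X) v), fun v => map_add _,
    fun v w x => funext fun l => (L.C X).add_act v w _,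
    fun a v x => funext fun l => (L.C X).smul_act a v _,
    fun v a x => funext fun l => (L.C X).leibniz v a _,
    fun v w x => funext fun l => (L.C X).lie_act v w _⟩
  l X a := cw n (L.l X a) + mv (U.dm X a)
  l_act X a v x := by
    have e : (U.dm X a).map v = 0 := Matrix.ext fun _ _ => v.map_algebraMap _
    have e2 : mv (0 : Matrix (Fin n) (Fin n) (T.R X)) x = 0 := funext fun l => by simp [mv_apply]
    simp only [LinearMap.add_apply, map_add, L.act_mv, e, e2, zero_add]
    exact congrArg (· + _) (funext fun l => L.l_act X a v _)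
  l_br X a b x := by
    have e := congrArg (fun m => mv m x) (U.dm_br X a b)
    simp only [mv_sub, mv_mul, mv_sum] at e
    simp only [algebraMap_smul] at e
    have e2 : cw n (L.l X a) (cw n (L.l X b) x) - cw n (L.l X b) (cw n (L.l X a) x) =
        ∑ c, (S.κ * eps a b c) • cw n (L.l X c) x := funext fun l => by
      rw [Finset.sum_apply]; exact L.l_br X a b _
    simp only [LinearMap.add_apply, map_add, L.cw_mv, smul_add, Finset.sum_add_distrib, ← e, ← e2]
    abel
  t φ := (mv (U.r φ)).restrictScalars ℂ ∘ₗ cw n (L.t φ)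
  t_smul {X Y} φ a x := by
    have e : cw n (L.t φ) (a • x) = T.f φ a • cw n (L.t φ) x := funext fun l => L.t_smul φ a _
    simp only [LinearMap.comp_apply, LinearMap.restrictScalars_apply, e, map_smul]
  t_id X x := by
    simp only [LinearMap.comp_apply, LinearMap.restrictScalars_apply, U.r_id, mv_one]
    exact funext fun l => L.t_id X _
  t_comp φ ψ x := by
    simp only [LinearMap.comp_apply, LinearMap.restrictScalars_apply, U.r_comp, mv_mul, L.t_mv]
    exact congrArg _ (congrArg _ (funext fun l => L.t_comp φ ψ _))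
  t_l {X Y} φ b x := by
    have e : cw n (L.t φ) (cw n (L.l X b) x) = ∑ a, S.ad φ a b • cw n (L.l Y a) (cw n (L.t φ) x) :=
      funext fun l => by rw [Finset.sum_apply]; exact L.t_l φ b _
    simp only [LinearMap.comp_apply, LinearMap.restrictScalars_apply, LinearMap.add_apply, map_add,
      L.t_mv, dm_map, e, ← mv_mul, U.r_dr, mv_sum, map_sum, map_smul, L.cw_mv, smul_add,
      Finset.sum_add_distrib]
  t_act {X Y} φ w k c v h x := by
    have e : cw n (fcL (L.C Y) w) (cw n (L.t φ) x) =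
        ∑ k, c k • cw n (L.t φ) (cw n (fcL (L.C X) (v k)) x) -
        (algebraMap ℂ (T.R Y) T.s * Ring.inverse (T.dl φ) * w (T.dl φ)) • cw n (L.t φ) x +
        ∑ a, w.liftKaehlerDifferential (S.th φ a) • cw n (L.l Y a) (cw n (L.t φ) x) :=
      funext fun l => by
        rw [Pi.add_apply, Pi.sub_apply, Finset.sum_apply, Finset.sum_apply]
        exact L.t_act φ w k c v h _
    simp only [LinearMap.comp_apply, LinearMap.restrictScalars_apply, LinearMap.add_apply,
      L.act_mv, e, U.der, mv_sum, mv_mul, map_add, map_sub, map_sum, map_smul, L.cw_mv, smul_add,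
      Finset.sum_add_distrib]
    abel

theorem rep_act (X : T.C) (v : Derivation ℂ (T.R X) (T.R X)) (p : Fin n → L.M X) (k : Fin n) :
    ((L.rep U).C X).act v p k = (L.C X).act v (p k) := rfl

theorem rep_l (X : T.C) (a : Fin 3) (p : Fin n → L.M X) (k : Fin n) :
    (L.rep U).l X a p k = L.l X a (p k) + ∑ m, U.dr a k m • p m :=
  congrArg (L.l X a (p k) + ·) ((mv_apply _ p k).trans
    (Finset.sum_congr rfl fun m _ => algebraMap_smul (T.R X) (U.dr a k m) (p m)))

theorem rep_t {X Y : T.C} (φ : X ⟶ Y) (p : Fin n → L.M X) (k : Fin n) :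
    (L.rep U).t φ p k = ∑ m, U.r φ k m • L.t φ (p m) := rfl

end SL

section Gk

variable {G : Grp} {B : Type} [CommRing B] [Algebra ℂ B] {h : Matrix (Fin G.N) (Fin G.N) B}

theorem GK.der_adm (K : GK G) (hh : G.Pt h) (w : Derivation ℂ B B) (f b : Fin 3) :
    w (adm G h f b) = ∑ e, w.liftKaehlerDifferential (thm G h e) *
      ∑ a, (K.κ * eps e a f) • adm G h a b := by
  obtain ⟨θ, hθ⟩ : ∃ θ : Fin 3 → B, θ = fun e => w.liftKaehlerDifferential (thm G h e) := ⟨_, rfl⟩
  have e0 := K.der_ht hh w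
  rw [← hθ] at e0
  have e1 := congrArg (·.map w) (K.ad_eq hh b)
  have e2 : (∑ a, adm G h a b • bt G B a).map w = G.ht fun a => w (adm G h a b) :=
    Matrix.ext fun p q => by
      simp [ht_eq, Matrix.sum_apply, bt, mul_comm]
  simp only [P286EC.der_mul, der_bt, Matrix.mul_zero, add_zero, e2, e0] at e1
  rw [Matrix.mul_assoc, K.ad_eq hh, ← Matrix.mul_assoc, ← Matrix.mul_assoc, ← Matrix.add_mul] at e1
  have e3 := congrArg (· * h.adjugate) e1
  simp only [Matrix.mul_assoc, pt_mul_adj hh, Matrix.mul_one] at e3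
  have e4 : G.ht (fun a => w (adm G h a b)) =
      G.ht fun f => ∑ e, θ e * ∑ a, (K.κ * eps e a f) • adm G h a b := by
    rw [← sub_eq_iff_eq_add.2 e3]
    simp only [ht_eq, Finset.sum_mul_sum, smul_mul_smul_comm]
    rw [Finset.sum_comm (f := fun a e => (adm G h a b * θ e) • _), ← Finset.sum_sub_distrib]
    simp only [← Finset.sum_sub_distrib, mul_comm (adm G h _ b), ← smul_sub, K.br_bt,
      Finset.smul_sum, Finset.sum_smul, Finset.mul_sum]
    rw [Finset.sum_comm (f := fun f e => ∑ a, (θ e * (K.κ * eps e a f) • adm G h a b) • bt G B f)]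
    refine Finset.sum_congr rfl fun e _ => ?_
    rw [Finset.sum_comm]
    refine Finset.sum_congr rfl fun f _ => Finset.sum_congr rfl fun a _ => ?_
    rw [mul_smul_comm, smul_assoc, smul_comm]
  rw [congrFun (K.ht_inj e4) f, hθ]

variable {I : Type} [SmallCategory I] {K : GK G}

theorem GK.gs_ok (K : GK G) (D : CD I) (s : ℂ) : (K.gs D s).Ok :=
  ⟨fun φ => K.adm_eps (QM.pt φ), fun φ => K.adm_orth (QM.pt φ), fun φ => K.der_adm (QM.pt φ)⟩

theorem GK.der_ev (K : GK G) (hh : G.Pt h) (w : Derivation ℂ B B) (x : K.O.R) :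
    w (K.ev h hh x) = ∑ a, w.liftKaehlerDifferential (thm G h a) * K.ev h hh (K.R a x) := by
  have e := K.der_ext' (K.ev h hh) (w.toLinearMap ∘ₗ (K.ev h hh).toLinearMap)
    (∑ a, w.liftKaehlerDifferential (thm G h a) • ((K.ev h hh).toLinearMap ∘ₗ (K.R a).toLinearMap))
    (fun x y => by simp) (fun x y => by
      simp only [Fin.sum_univ_three]
      simp
      ring) (Matrix.ext fun p q => by
      have e2 : ∀ a, K.ev h hh (K.R a (K.g p q)) = (bt G B a * h) p q := fun a => by
        have := congrArg (·.map (K.ev h hh)) (K.R_g a)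
        simp only [map_mul', bt_map, K.ev_g] at this
        exact congrFun (congrFun this p) q
      simp [K.ev_apply, e2, K.der_eq hh, mul_comm]) x
  simpa using e

theorem Rep.dr_br (U : Rep K) (a b : Fin 3) :
    U.dr a * U.dr b - U.dr b * U.dr a = ∑ c, (K.κ * eps a b c) • U.dr c := by
  have e : ∀ a b, (U.r.map (K.L b)).map (K.L a) =
      U.r * (U.dr a).map (algebraMap ℂ _) * (U.dr b).map (algebraMap ℂ _) := fun a b => by
    rw [U.L_r, ← U.L_r a]; exact P286EC.der_mul_cm _ _ _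
  have e1 : U.r * (U.dr a).map (algebraMap ℂ _) * (U.dr b).map (algebraMap ℂ _) -
      U.r * (U.dr b).map (algebraMap ℂ _) * (U.dr a).map (algebraMap ℂ _) =
      ∑ c, (K.κ * eps a b c) • (U.r * (U.dr c).map (algebraMap ℂ _)) := by
    rw [← e, ← e]
    simp only [← U.L_r]
    exact Matrix.ext fun p q => (K.L_L' a b (U.r p q)).trans (by rw [Matrix.sum_apply]; rfl)
  have e2 := congrArg (K.ev (1 : Matrix _ _ ℂ) (Grp.Pt.one G)).mapMatrix e1
  simp only [map_sub, map_mul, map_sum, map_smul, AlgHom.mapMatrix_apply, U.r_one, map_cm,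
    Matrix.one_mul] at e2
  exact e2

/-- A representation of the group as a representation of the gauge data. -/
def Rep.rs (U : Rep K) (D : CD I) (s : ℂ) : RS (K.gs D s) U.n where
  r φ := U.at (qh φ) (qpt φ)
  dr := U.dr
  r_id X := by
    have e : K.ev (qh (idA G s X)) (qpt _) = (Algebra.ofId ℂ (RQ G s X)).comp
        (K.ev (1 : Matrix _ _ ℂ) (Grp.Pt.one G)) := K.ext _ _ (by
      rw [K.comp_ev, K.ev_g, K.ev_g, map_one']; rfl)
    refine (congrArg (fun f : K.O.R →ₐ[ℂ] RQ G s X => U.r.map f) e).trans ?_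
    exact (congrArg (·.map (Algebra.ofId ℂ (RQ G s X))) U.r_one).trans (map_one' _)
  r_comp φ ψ := (U.r_mul (QM.pt ψ) ((QM.pt φ).map (QM.φ ψ))).trans
    (congrArg (fun f : K.O.R →ₐ[ℂ] _ => _ * U.r.map f) (K.comp_ev (QM.pt φ) (QM.φ ψ)).symm)
  br := U.dr_br
  r_dr {X Y} φ b := by
    have e : U.r * (U.dr b).map (algebraMap ℂ _) =
        ∑ a, adm G K.g a b • ((U.dr a).map (algebraMap ℂ _) * U.r) := by
      simp only [← U.L_r, ← U.R_r]
      exact Matrix.ext fun p q => (K.L_eq b (U.r p q)).trans (by rw [Matrix.sum_apply]; rfl)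
    have e2 := congrArg (K.ev (qh φ) (qpt φ)).mapMatrix e
    have e3 : ∀ a, K.ev (qh φ) (qpt φ) (adm G K.g a b) = adm G (qh φ) a b := fun a => by
      have := adm_map (K.ev (qh φ) (qpt φ)) K.g
      rw [K.ev_g] at this
      exact congrFun (congrFun this a) b
    simp only [map_sum, AlgHom.mapMatrix_apply, P286E.map_smul', map_mul', map_cm, e3] at e2
    exact e2
  der {X Y} φ w := Matrix.ext fun p q => by
    refine (K.der_ev (qpt φ) w (U.r p q)).trans ?_
    rw [Matrix.sum_apply]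
    refine Finset.sum_congr rfl fun a _ => congrArg (_ * ·) ?_
    have := congrArg (·.map (K.ev (qh φ) (qpt φ))) (U.R_r a)
    simp only [map_mul', map_cm] at this
    exact congrFun (congrFun this p) q

theorem Rep.rs_r (U : Rep K) {D : CD I} {s : ℂ} {X Y : QO D} (φ : Ar G s X Y) :
    (U.rs D s).r φ = U.at (qh φ) (qpt φ) := rfl

theorem Rep.rs_dr (U : Rep K) (D : CD I) (s : ℂ) : (U.rs D s).dr = U.dr := rfl

end Gk

end

end Vale.Agent.P286EX
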