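import Vale.Agent.P286E5.Hg

/-!
# The differential on the ghosts
-/

set_option linter.all false

namespace Vale.Agent.P286EX

open CategoryTheory Matrix TensorProduct Vale.Agent.P286 Vale.Agent.P286.St Vale.Agent.P286.H847
  Vale.Agent.P286.H710 Vale.Agent.P286E Vale.Agent.P286EI Vale.Agent.P286EI.L3

noncomputable section

namespace Gl

variable {A M : Type} [CommRing A] [AddCommGroup M] [Module A M] [Algebra ℂ A] [Module ℂ M]
  [IsScalarTower ℂ A M] {κ : ℂ} {l : Fin 3 → M →ₗ[A] M}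

theorem csm (f : L3 M →ₗ[A] L3 M) (c : ℂ) (p : L3 M) : f (c • p) = c • f p :=
  f.map_smul_of_tower c p

theorem ad_inl (a : Fin 3) (z : M) : L3.ad A M a (L3.inl A M z) = 0 := by
  refine L3.ext ?_ ?_ ?_ ?_ <;> simp [L3.ad_apply, inl_apply]

theorem ad_wg (a e : Fin 3) (x : L3 M) :
    L3.ad A M a (wg A M e x) = wg A M e (L3.ad A M a x) + ∑ c, eps a e c • wg A M c x := by
  rw [Fin.sum_univ_three]
  fin_cases a <;> fin_cases e <;> refine ext8 ?_ ?_ ?_ ?_ ?_ ?_ ?_ ?_ <;>
    simp [L3.ad_apply, wg_apply, cx_apply, eps]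

theorem wg_ct (e : Fin 3) (x : L3 M) :
    ∑ a, ∑ c, eps a e c • wg A M c (ct A M a x) = -L3.ad A M e x := by
  simp only [Fin.sum_univ_three]
  fin_cases e <;> refine ext8 ?_ ?_ ?_ ?_ ?_ ?_ ?_ ?_ <;>
    simp [L3.ad_apply, wg_apply, ct_apply, cx_apply, eps]

theorem jac (a b e f : Fin 3) : ∑ c, eps b e c * eps a c f =
    ∑ c, eps a e c * eps b c f + ∑ c, eps a b c * eps c e f := by
  fin_cases a <;> fin_cases b <;> fin_cases e <;> fin_cases f <;> simp [eps, Fin.sum_univ_three]

section Abs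

variable {d : L3 M →ₗ[A] L3 M} {L : Fin 3 → L3 M →ₗ[A] L3 M}
  (d_inl : ∀ z, d (L3.inl A M z) = 0) (d_wg : ∀ a x, d (wg A M a x) = L a x - wg A M a (d x))
  (L_inl : ∀ a z, L a (L3.inl A M z) = L3.inl A M (l a z))
  (L_wg : ∀ a b x, L a (wg A M b x) = wg A M b (L a x) + ∑ c, (κ * eps a b c) • wg A M c x)
  (hl : ∀ a b x, l a (l b x) - l b (l a x) = ∑ c, (κ * eps a b c) • l c x)

include L_inl L_wg hl in
theorem L_L (a b : Fin 3) (p : L3 M) : L a (L b p) - L b (L a p) = ∑ c, (κ * eps a b c) • L c p := by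
  induction p using vind A M with
  | h0 m => simp only [L_inl, ← map_sub, hl, map_sum, LinearMap.map_smul_of_tower]
  | add p q hp hq =>
    simp only [map_add, smul_add, Finset.sum_add_distrib, ← hp, ← hq]
    abel
  | h1 e p hp =>
    have h : ∀ u : Fin 3 → ℂ, ∀ w : Fin 3 → Fin 3 → ℂ,
        ∑ c, (κ * u c) • ∑ f, (κ * w c f) • wg A M f p =
          ∑ f, (κ * κ * ∑ c, u c * w c f) • wg A M f p := fun u w => by
      simp only [Finset.smul_sum, Finset.mul_sum, Finset.sum_smul, smul_smul]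
      rw [Finset.sum_comm]
      exact Finset.sum_congr rfl fun _ _ => Finset.sum_congr rfl fun _ _ => by ring_nf
    have h2 := congrArg (wg A M e) hp
    simp only [map_sub, map_sum, csm] at h2
    simp only [L_wg, map_add, map_sum, csm, smul_add, Finset.sum_add_distrib, h, ← h2, jac a b,
      mul_add, add_smul]
    abel

include d_inl d_wg L_inl L_wg hl in
theorem d_L (a : Fin 3) (p : L3 M) : d (L a p) = L a (d p) := by
  induction p using vind A M with
  | h0 m => rw [L_inl, d_inl, d_inl, map_zero]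
  | add p q hp hq => simp only [map_add, hp, hq]
  | h1 e p hp =>
    simp only [L_wg, d_wg, map_add, map_sub, map_sum, csm, hp, smul_sub, Finset.sum_sub_distrib,
      ← L_L L_inl L_wg hl]
    abel

include d_inl d_wg L_inl L_wg hl in
theorem d_d (p : L3 M) : d (d p) = 0 := by
  induction p using vind A M with
  | h0 m => rw [d_inl, map_zero]
  | add p q hp hq => simp only [map_add, hp, hq, add_zero]
  | h1 e p hp =>
    rw [d_wg, map_sub, d_wg, hp, map_zero, sub_zero, d_L d_inl d_wg L_inl L_wg hl, sub_self]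

theorem inl_mem (z : M) : L3.inl A M z ∈ L3.gr A M 0 := by
  rw [← sgl_empty]; exact sgl_mem (R := A) ∅ _

theorem mem_ind' {Q : ℤ → L3 M → Prop} (h0 : ∀ z, Q 0 (L3.inl A M z))
    (h1 : ∀ a m, ∀ x ∈ L3.gr A M m, Q m x → Q (m - 1) (wg A M a x))
    (add : ∀ m x y, Q m x → Q m y → Q m (x + y)) (zero : ∀ m, Q m 0) {m : ℤ} {x : L3 M}
    (h : x ∈ L3.gr A M m) : Q m x :=
  (mem_ind (A := A) (Q := fun m x => x ∈ L3.gr A M m ∧ Q m x) (fun z => ⟨inl_mem z, h0 z⟩)
    (fun a m x hx => ⟨wg_mem a hx.1, h1 a m x hx.1 hx.2⟩)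
    (fun m x y hx hy => ⟨add_mem hx.1 hy.1, add m x y hx.2 hy.2⟩)
    (fun m => ⟨zero_mem _, zero m⟩) h).2

include L_inl L_wg in
theorem L_mem (a : Fin 3) {m : ℤ} {x : L3 M} (h : x ∈ L3.gr A M m) : L a x ∈ L3.gr A M m :=
  mem_ind' (A := A) (Q := fun m x => L a x ∈ L3.gr A M m) (fun z => by rw [L_inl]; exact inl_mem _)
    (fun b m x hx hy => by
      rw [L_wg]
      exact add_mem (wg_mem b hy) (sum_mem fun c _ =>
        Submodule.smul_of_tower_mem _ _ (wg_mem c hx)))
    (fun m x y hx hy => by rw [map_add]; exact add_mem hx hy)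
    (fun m => by rw [map_zero]; exact zero_mem _) h

include d_inl d_wg L_inl L_wg in
theorem d_mem' {m : ℤ} {x : L3 M} (h : x ∈ L3.gr A M m) : d x ∈ L3.gr A M (m + 1) :=
  mem_ind' (A := A) (Q := fun m x => d x ∈ L3.gr A M (m + 1))
    (fun z => by rw [d_inl]; exact zero_mem _)
    (fun b m x hx hy => by
      have := wg_mem b hy
      rw [add_sub_cancel_right] at this
      rw [d_wg, sub_add_cancel]
      exact sub_mem (L_mem L_inl L_wg b hx) this)
    (fun m x y hx hy => by rw [map_add]; exact add_mem hx hy)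
    (fun m => by rw [map_zero]; exact zero_mem _) h

/-- The datum from the four relations. -/
def CE.mk' : CE κ l :=
  ⟨d, L, d_inl, d_wg, L_inl, L_wg, d_d d_inl d_wg L_inl L_wg hl,
    fun _ _ => d_mem' d_inl d_wg L_inl L_wg⟩

end Abs

variable (κ l)

/-- The total action. -/
def lL (a : Fin 3) : L3 M →ₗ[A] L3 M := L3.map (l a) + κ • L3.ad A M a

/-- The differential. -/
def dd3 : L3 M →ₗ[A] L3 M := ∑ a, (L3.map (l a) + (κ / 2) • L3.ad A M a) ∘ₗ ct A M a

theorem lL_apply (a : Fin 3) (x : L3 M) : lL κ l a x = L3.map (l a) x + κ • L3.ad A M a x := rfl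

theorem lL_inl (a : Fin 3) (z : M) : lL κ l a (L3.inl A M z) = L3.inl A M (l a z) := by
  rw [lL_apply, ad_inl, smul_zero, add_zero, map_inl]

theorem lL_wg (a b : Fin 3) (x : L3 M) :
    lL κ l a (wg A M b x) = wg A M b (lL κ l a x) + ∑ c, (κ * eps a b c) • wg A M c x := by
  simp only [lL_apply, map_wg, ad_wg, map_add, csm, smul_add, Finset.smul_sum, mul_smul, add_assoc]

theorem dd3_inl (z : M) : dd3 κ l (L3.inl A M z) = 0 := by simp [dd3, ct_inl]

theorem dd3_wg (e : Fin 3) (x : L3 M) :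
    dd3 κ l (wg A M e x) = lL κ l e x - wg A M e (dd3 κ l x) := by
  simp only [dd3, LinearMap.sum_apply, LinearMap.comp_apply, ct_wg, map_sub,
    apply_ite (L3.map (l _) + (κ / 2) • L3.ad A M _), map_zero, Finset.sum_sub_distrib,
    Finset.sum_ite_eq', Finset.mem_univ, if_true, map_sum]
  simp only [lL_apply, LinearMap.add_apply, LinearMap.smul_apply, map_wg, ad_wg, map_add, csm,
    smul_add, Finset.sum_add_distrib, ← Finset.smul_sum, wg_ct]
  module

variable {κ l}

/-- The standard datum. -/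
def ce (hl : ∀ a b x, l a (l b x) - l b (l a x) = ∑ c, (κ * eps a b c) • l c x) : CE κ l :=
  CE.mk' (dd3_inl κ l) (dd3_wg κ l) (lL_inl κ l) (lL_wg κ l) hl

theorem CE.L_eq (c : CE κ l) (a : Fin 3) (x : L3 M) :
    c.L a x = L3.map (l a) x + κ • L3.ad A M a x := by
  rw [← lL_apply]
  induction x using vind A M with
  | h0 m => rw [c.L_inl, lL_inl]
  | add p q hp hq => simp only [map_add, hp, hq]
  | h1 e p hp => rw [c.L_wg, lL_wg, hp]

/-- The differential is determined by two relations. -/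
theorem CE.d_eq (c : CE κ l) {d : L3 M → L3 M} (h0 : ∀ z, d (L3.inl A M z) = 0)
    (h1 : ∀ a x, d (wg A M a x) = (L3.map (l a) x + κ • L3.ad A M a x) - wg A M a (d x))
    (h2 : ∀ x y, d (x + y) = d x + d y) (x : L3 M) : c.d x = d x := by
  induction x using vind A M with
  | h0 m => rw [c.d_inl, h0]
  | add p q hp hq => rw [map_add, h2, hp, hq]
  | h1 e p hp => rw [c.d_wg, h1, hp, c.L_eq]

/-- The Leibniz rule for operators commuting with the ghosts and the action. -/
theorem CE.d_op (c : CE κ l) (r r' : L3 M →ₗ[A] L3 M)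
    (h1 : ∀ a x, r (wg A M a x) = wg A M a (r x)) (h1' : ∀ a x, r' (wg A M a x) = wg A M a (r' x))
    (h2 : ∀ a x, r (c.L a x) = c.L a (r x))
    (h0 : ∀ z, c.d (r (L3.inl A M z)) = r' (L3.inl A M z)) (x : L3 M) :
    c.d (r x) = r (c.d x) + r' (L3.sg A M x) := by
  induction x using vind A M with
  | h0 z =>
    rw [h0, c.d_inl, map_zero, zero_add]
    exact congrArg r' (L3.ext rfl neg_zero.symm rfl neg_zero.symm)
  | add p q hp hq => simp only [map_add, hp, hq]; abel
  | h1 e p hp =>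
    simp only [h1, c.d_wg, hp, map_sub, map_add, h2, sg_wg, map_neg, h1']
    abel

end Gl

variable {T : TSite} {S : GS T}

/-- The gauge family of a family with an infinitesimal action. -/
abbrev SL.hg (L : SL S) (hS : S.Ok) : HG S := L.hg' hS fun X => Gl.ce (L.l_br X)

end

end Vale.Agent.P286EX
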