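import Vale.Agent.P286E5.SL

/-!
# Ghosts
-/

set_option linter.all false

namespace Vale.Agent.P286EX

open Matrix TensorProduct Vale.Agent.P286 Vale.Agent.P286.H847 Vale.Agent.P286.H710

noncomputable section

/-- The exterior algebra of the Lie algebra. -/
abbrev La : Type := ExteriorAlgebra ℂ (Fin 3 → ℂ)

namespace Gh

/-- The generators. -/
def gi (a : Fin 3) : La := ExteriorAlgebra.ι ℂ (Pi.single a 1)

/-- The contractions. -/
def cj (a : Fin 3) : La →ₗ[ℂ] La := CliffordAlgebra.contractLeft (LinearMap.proj a)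

theorem gi_gi (a b : Fin 3) : gi a * gi b = -(gi b * gi a) :=
  eq_neg_of_add_eq_zero_left (ExteriorAlgebra.ι_add_mul_swap _ _)

theorem gi_sq (a : Fin 3) : gi a * gi a = 0 := ExteriorAlgebra.ι_sq_zero _

theorem cj_gi (a b : Fin 3) (x : La) :
    cj a (gi b * x) = (if a = b then x else 0) - gi b * cj a x := by
  refine (CliffordAlgebra.contractLeft_ι_mul _ _ _).trans (congrArg (· - _) ?_)
  rw [LinearMap.proj_apply, Pi.single_apply, ite_smul, one_smul, zero_smul]

theorem cj_one (a : Fin 3) : cj a 1 = 0 := CliffordAlgebra.contractLeft_one _ _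

theorem iota_eq (v : Fin 3 → ℂ) : ExteriorAlgebra.ι ℂ v = ∑ a, v a • gi a := by
  simp only [gi, ← map_smul, ← map_sum]
  exact congrArg _ (funext fun b => by simp [Pi.single_apply])

variable (A M : Type) [CommRing A] [Algebra ℂ A] [AddCommGroup M] [Module ℂ M] [Module A M]
  [IsScalarTower ℂ A M]

/-- The vacuum. -/
def vac : M →ₗ[A] M ⊗[ℂ] La where
  toFun m := m ⊗ₜ 1
  map_add' _ _ := add_tmul _ _ _
  map_smul' _ _ := (smul_tmul' _ _ _).symm

/-- The wedge product. -/
def oi (a : Fin 3) : M ⊗[ℂ] La →ₗ[A] M ⊗[ℂ] La :=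
  AlgebraTensorModule.lTensor A M (LinearMap.mulLeft ℂ (gi a))

/-- The contraction. -/
def oj (a : Fin 3) : M ⊗[ℂ] La →ₗ[A] M ⊗[ℂ] La := AlgebraTensorModule.lTensor A M (cj a)

/-- The sign. -/
def os : M ⊗[ℂ] La →ₗ[A] M ⊗[ℂ] La :=
  AlgebraTensorModule.lTensor A M (CliffordAlgebra.involute : La →ₐ[ℂ] La).toLinearMap

/-- The number of ghosts. -/
def oN : M ⊗[ℂ] La →ₗ[A] M ⊗[ℂ] La := ∑ a, oi A M a ∘ₗ oj A M a

/-- The adjoint action. -/
def ad (κ : ℂ) (a : Fin 3) : M ⊗[ℂ] La →ₗ[A] M ⊗[ℂ] La :=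
  ∑ b, ∑ c, (κ * eps a b c) • (oi A M c ∘ₗ oj A M b)

variable {A M}

/-- An operator on the first factor. -/
def rT (f : M →ₗ[A] M) : M ⊗[ℂ] La →ₗ[A] M ⊗[ℂ] La := AlgebraTensorModule.rTensor ℂ La f

theorem vac_apply (m : M) : vac A M m = m ⊗ₜ 1 := rfl

theorem oi_tmul (a : Fin 3) (m : M) (x : La) : oi A M a (m ⊗ₜ x) = m ⊗ₜ (gi a * x) := rfl

theorem oj_tmul (a : Fin 3) (m : M) (x : La) : oj A M a (m ⊗ₜ x) = m ⊗ₜ cj a x := rfl

theorem os_tmul (m : M) (x : La) : os A M (m ⊗ₜ x) = m ⊗ₜ CliffordAlgebra.involute x := rfl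

theorem rT_tmul (f : M →ₗ[A] M) (m : M) (x : La) : rT f (m ⊗ₜ x) = f m ⊗ₜ x := rfl

theorem tind {Q : M ⊗[ℂ] La → Prop} (h : ∀ m x, Q (m ⊗ₜ x)) (add : ∀ p q, Q p → Q q → Q (p + q))
    (p : M ⊗[ℂ] La) : Q p :=
  TensorProduct.induction_on p (by have := h 0 1; rwa [zero_tmul] at this) h add

variable (A M) in
/-- Induction from the vacuum. -/
theorem ind {Q : M ⊗[ℂ] La → Prop} (h0 : ∀ m, Q (vac A M m)) (add : ∀ p q, Q p → Q q → Q (p + q))
    (hi : ∀ a p, Q p → Q (oi A M a p)) (p : M ⊗[ℂ] La) : Q p := by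
  refine tind (fun m x => ?_) add p
  induction x using CliffordAlgebra.left_induction generalizing m with
  | algebraMap r => rw [Algebra.algebraMap_eq_smul_one, ← smul_tmul]; exact h0 _
  | add x y hx hy => rw [tmul_add]; exact add _ _ (hx m) (hy m)
  | ι_mul x v hx =>
    rw [show CliffordAlgebra.ι _ v = ∑ a, v a • gi a from iota_eq v, Fin.sum_univ_three]
    simp only [add_mul, tmul_add, smul_mul_assoc, ← smul_tmul, ← oi_tmul (A := A)]
    exact add _ _ (add _ _ (hi _ _ (hx _)) (hi _ _ (hx _))) (hi _ _ (hx _))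

theorem oi_oi (a b : Fin 3) (p : M ⊗[ℂ] La) : oi A M a (oi A M b p) = -oi A M b (oi A M a p) := by
  induction p using tind with
  | h m x => simp only [oi_tmul, ← mul_assoc]; rw [gi_gi, neg_mul, tmul_neg]
  | add p q hp hq => simp only [map_add, hp, hq, neg_add]

theorem oi_sq (a : Fin 3) (p : M ⊗[ℂ] La) : oi A M a (oi A M a p) = 0 := by
  induction p using tind with
  | h m x => simp only [oi_tmul, ← mul_assoc, gi_sq, zero_mul, tmul_zero]
  | add p q hp hq => simp only [map_add, hp, hq, add_zero]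

theorem oj_oi (a b : Fin 3) (p : M ⊗[ℂ] La) :
    oj A M a (oi A M b p) = (if a = b then p else 0) - oi A M b (oj A M a p) := by
  induction p using tind with
  | h m x => rw [oi_tmul, oj_tmul, cj_gi, tmul_sub, tmul_ite]; rfl
  | add p q hp hq => rw [map_add, map_add, hp, hq, map_add, map_add]; split_ifs <;> abel

theorem os_oi (a : Fin 3) (p : M ⊗[ℂ] La) : os A M (oi A M a p) = -oi A M a (os A M p) := by
  induction p using tind with
  | h m x => rw [oi_tmul, os_tmul, os_tmul, oi_tmul, map_mul, gi, CliffordAlgebra.involute_ι,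
      neg_mul, tmul_neg]
  | add p q hp hq => simp only [map_add, hp, hq, neg_add]

theorem rT_oi (f : M →ₗ[A] M) (a : Fin 3) (p : M ⊗[ℂ] La) : rT f (oi A M a p) = oi A M a (rT f p) := by
  induction p using tind with
  | h m x => rfl
  | add p q hp hq => simp only [map_add, hp, hq]

theorem oj_vac (a : Fin 3) (m : M) : oj A M a (vac A M m) = 0 := by
  rw [vac_apply, oj_tmul, cj_one, tmul_zero]

theorem os_vac (m : M) : os A M (vac A M m) = vac A M m := by rw [vac_apply, os_tmul, map_one]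

theorem rT_vac (f : M →ₗ[A] M) (m : M) : rT f (vac A M m) = vac A M (f m) := rfl

theorem oN_vac (m : M) : oN A M (vac A M m) = 0 := by simp [oN, oj_vac]

theorem oN_oi (b : Fin 3) (p : M ⊗[ℂ] La) :
    oN A M (oi A M b p) = oi A M b (oN A M p) + oi A M b p := by
  simp only [oN, LinearMap.sum_apply, LinearMap.comp_apply, oj_oi, map_sub, oi_oi _ b, map_sum,
    apply_ite (oi A M _), map_zero, Finset.sum_sub_distrib, Finset.sum_ite_eq', Finset.mem_univ,
    if_true, Finset.sum_neg_distrib]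
  abel

theorem csm (f : M ⊗[ℂ] La →ₗ[A] M ⊗[ℂ] La) (c : ℂ) (p : M ⊗[ℂ] La) : f (c • p) = c • f p :=
  f.map_smul_of_tower c p

variable (κ : ℂ)

theorem ad_apply (a : Fin 3) (p : M ⊗[ℂ] La) :
    ad A M κ a p = ∑ b, ∑ c, (κ * eps a b c) • oi A M c (oj A M b p) := by
  simp only [ad, LinearMap.sum_apply, LinearMap.smul_apply, LinearMap.comp_apply]

theorem ad_vac (a : Fin 3) (m : M) : ad A M κ a (vac A M m) = 0 := by simp [ad_apply, oj_vac]

theorem ad_oi (a e : Fin 3) (p : M ⊗[ℂ] La) :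
    ad A M κ a (oi A M e p) = oi A M e (ad A M κ a p) + ∑ c, (κ * eps a e c) • oi A M c p := by
  simp only [ad_apply, oj_oi, map_sub, oi_oi _ e, map_sum, csm, apply_ite (oi A M _), map_zero,
    smul_sub, smul_ite, smul_zero, Finset.sum_sub_distrib, smul_neg, Finset.sum_neg_distrib]
  rw [Finset.sum_comm]
  simp only [Finset.sum_ite_eq', Finset.mem_univ, if_true]
  abel

variable (l : Fin 3 → M →ₗ[A] M)

/-- The total action of the Lie algebra. -/
def oL (a : Fin 3) : M ⊗[ℂ] La →ₗ[A] M ⊗[ℂ] La := rT (l a) + ad A M κ a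

/-- The differential. -/
def od : M ⊗[ℂ] La →ₗ[A] M ⊗[ℂ] La :=
  ∑ a, (rT (l a) + (2⁻¹ : ℂ) • ad A M κ a) ∘ₗ oj A M a

theorem oL_vac (a : Fin 3) (m : M) : oL κ l a (vac A M m) = vac A M (l a m) := by
  rw [oL, LinearMap.add_apply, ad_vac, add_zero, rT_vac]

theorem od_vac (m : M) : od κ l (vac A M m) = 0 := by simp [od, oj_vac]

theorem oL_oi (a e : Fin 3) (p : M ⊗[ℂ] La) :
    oL κ l a (oi A M e p) = oi A M e (oL κ l a p) + ∑ c, (κ * eps a e c) • oi A M c p := by
  simp only [oL, LinearMap.add_apply, rT_oi, ad_oi, map_add, add_assoc]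

theorem od_oi (e : Fin 3) (p : M ⊗[ℂ] La) :
    od κ l (oi A M e p) = oL κ l e p - oi A M e (od κ l p) := by
  have h : ∑ a, ∑ c, (κ * eps a e c) • oi A M c (oj A M a p) = -ad A M κ e p := by
    simp only [ad_apply, ← Finset.sum_neg_distrib, ← neg_smul, ← mul_neg, ← eps_swap]
  simp only [od, oL, LinearMap.sum_apply, LinearMap.comp_apply, oj_oi, map_sub,
    apply_ite (rT (l _) + (2⁻¹ : ℂ) • ad A M κ _), map_zero, Finset.sum_sub_distrib,
    Finset.sum_ite_eq', Finset.mem_univ, if_true, map_sum]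
  simp only [LinearMap.add_apply, LinearMap.smul_apply, rT_oi, ad_oi, map_add, csm, smul_add,
    Finset.sum_add_distrib, ← Finset.smul_sum, h]
  module

theorem jac (a b e f : Fin 3) : ∑ c, eps b e c * eps a c f =
    ∑ c, eps a e c * eps b c f + ∑ c, eps a b c * eps c e f := by
  fin_cases a <;> fin_cases b <;> fin_cases e <;> fin_cases f <;> simp [eps, Fin.sum_univ_three]

variable (hl : ∀ a b x, l a (l b x) - l b (l a x) = ∑ c, (κ * eps a b c) • l c x)

include hl in
theorem oL_oL (a b : Fin 3) (p : M ⊗[ℂ] La) :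
    oL κ l a (oL κ l b p) - oL κ l b (oL κ l a p) = ∑ c, (κ * eps a b c) • oL κ l c p := by
  induction p using ind A M with
  | h0 m => simp only [oL_vac, ← map_sub, hl, map_sum, LinearMap.map_smul_of_tower]
  | add p q hp hq =>
    simp only [map_add, smul_add, Finset.sum_add_distrib, ← hp, ← hq]
    abel
  | hi e p hp =>
    have h : ∀ u v : Fin 3 → ℂ, ∀ w : Fin 3 → Fin 3 → ℂ,
        ∑ c, (κ * u c) • ∑ f, (κ * w c f) • oi A M f p =
          ∑ f, (κ * κ * ∑ c, u c * w c f) • oi A M f p := fun u v w => by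
      simp only [Finset.smul_sum, Finset.mul_sum, Finset.sum_smul, smul_smul]
      rw [Finset.sum_comm]
      exact Finset.sum_congr rfl fun _ _ => Finset.sum_congr rfl fun _ _ => by ring_nf
    have h2 := congrArg (oi A M e) hp
    simp only [map_sub, map_sum, csm] at h2
    simp only [oL_oi, map_add, map_sum, csm, smul_add, Finset.sum_add_distrib, h _ 0, ← h2, jac a b,
      mul_add, add_smul]
    abel

include hl in
theorem od_oL (a : Fin 3) (p : M ⊗[ℂ] La) : od κ l (oL κ l a p) = oL κ l a (od κ l p) := by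
  induction p using ind A M with
  | h0 m => rw [oL_vac, od_vac, od_vac, map_zero]
  | add p q hp hq => simp only [map_add, hp, hq]
  | hi e p hp =>
    simp only [oL_oi, od_oi, map_add, map_sub, map_sum, csm, hp, smul_sub, Finset.sum_sub_distrib,
      ← oL_oL κ l hl]
    abel

include hl in
theorem od_od (p : M ⊗[ℂ] La) : od κ l (od κ l p) = 0 := by
  induction p using ind A M with
  | h0 m => rw [od_vac, map_zero]
  | add p q hp hq => simp only [map_add, hp, hq, add_zero]
  | hi e p hp => rw [od_oi, map_sub, od_oi, hp, map_zero, sub_zero, od_oL κ l hl, sub_self]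

theorem oN_oL (a : Fin 3) (p : M ⊗[ℂ] La) : oN A M (oL κ l a p) = oL κ l a (oN A M p) := by
  induction p using ind A M with
  | h0 m => rw [oL_vac, oN_vac, oN_vac, map_zero]
  | add p q hp hq => simp only [map_add, hp, hq]
  | hi e p hp =>
    simp only [oL_oi, oN_oi, map_add, map_sum, csm, hp, smul_add, Finset.sum_add_distrib]
    abel

theorem os_oL (a : Fin 3) (p : M ⊗[ℂ] La) : os A M (oL κ l a p) = oL κ l a (os A M p) := by
  induction p using ind A M with
  | h0 m => rw [oL_vac, os_vac, os_vac, oL_vac]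
  | add p q hp hq => simp only [map_add, hp, hq]
  | hi e p hp =>
    simp only [oL_oi, os_oi, map_add, map_neg, map_sum, csm, hp, smul_neg, Finset.sum_neg_distrib]
    abel

theorem oN_od (p : M ⊗[ℂ] La) : oN A M (od κ l p) = od κ l (oN A M p) - od κ l p := by
  induction p using ind A M with
  | h0 m => simp only [od_vac, oN_vac, map_zero, sub_zero]
  | add p q hp hq => simp only [map_add, hp, hq]; abel
  | hi e p hp => simp only [od_oi, oN_oi, map_add, map_sub, hp, oN_oL]; abel

theorem os_od (p : M ⊗[ℂ] La) : os A M (od κ l p) = -od κ l (os A M p) := by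
  induction p using ind A M with
  | h0 m => simp only [od_vac, os_vac, map_zero, neg_zero]
  | add p q hp hq => simp only [map_add, hp, hq, neg_add]
  | hi e p hp => simp only [od_oi, os_oi, map_neg, map_sub, hp, os_oL, neg_neg]

theorem oN_os (p : M ⊗[ℂ] La) : oN A M (os A M p) = os A M (oN A M p) := by
  induction p using ind A M with
  | h0 m => simp only [os_vac, oN_vac, map_zero]
  | add p q hp hq => simp only [map_add, hp, hq]
  | hi e p hp => simp only [os_oi, oN_oi, map_neg, map_add, hp, neg_add]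

theorem os_os (p : M ⊗[ℂ] La) : os A M (os A M p) = p := by
  induction p using ind A M with
  | h0 m => simp only [os_vac]
  | add p q hp hq => simp only [map_add, hp, hq]
  | hi e p hp => simp only [os_oi, map_neg, hp, neg_neg]

variable (A M) in
/-- The grading. -/
def gr (m : ℤ) : Submodule ℂ (M ⊗[ℂ] La) where
  carrier := {p | oN A M p = (-(m : ℂ)) • p ∧ os A M p = (m.negOnePow : ℤ) • p}
  add_mem' hp hq := ⟨by rw [map_add, hp.1, hq.1, smul_add], by rw [map_add, hp.2, hq.2, smul_add]⟩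
  zero_mem' := ⟨by rw [map_zero, smul_zero], by rw [map_zero, smul_zero]⟩
  smul_mem' c p hp := ⟨by rw [csm, hp.1, smul_comm], by rw [csm, hp.2, smul_comm]⟩

theorem vac_gr (m : M) : vac A M m ∈ gr A M 0 :=
  ⟨by rw [oN_vac, Int.cast_zero, neg_zero, zero_smul], by simp [os_vac]⟩

theorem oi_gr (a : Fin 3) {m : ℤ} {p : M ⊗[ℂ] La} (h : p ∈ gr A M m) :
    oi A M a p ∈ gr A M (m - 1) :=
  ⟨by rw [oN_oi, h.1, csm]; push_cast; module, by
    rw [os_oi, h.2, map_zsmul, Int.negOnePow_sub]; simp⟩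

theorem od_gr {m : ℤ} {p : M ⊗[ℂ] La} (h : p ∈ gr A M m) : od κ l p ∈ gr A M (m + 1) :=
  ⟨by rw [oN_od, h.1, csm]; push_cast; module, by
    rw [os_od, h.2, map_zsmul, Int.negOnePow_succ]; simp⟩

theorem smul_gr (a : A) {m : ℤ} {p : M ⊗[ℂ] La} (h : p ∈ gr A M m) : a • p ∈ gr A M m :=
  ⟨by rw [map_smul, h.1, smul_comm], by rw [map_smul, h.2, smul_comm]⟩

theorem gr_ind {Q : M ⊗[ℂ] La → Prop} (h : ∀ m, ∀ p ∈ gr A M m, Q p)
    (add : ∀ p q, Q p → Q q → Q (p + q)) (p : M ⊗[ℂ] La) : Q p := by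
  have e : p ∈ ⨆ m, gr A M m := by
    induction p using ind A M with
    | h0 m => exact Submodule.mem_iSup_of_mem 0 (vac_gr m)
    | add p q hp hq => exact add_mem hp hq
    | hi a p hp =>
      refine Submodule.iSup_induction _ (motive := fun p => oi A M a p ∈ ⨆ m, gr A M m) hp
        (fun m x hx => Submodule.mem_iSup_of_mem _ (oi_gr a hx)) (by simp) fun x y hx hy => ?_
      rw [map_add]; exact add_mem hx hy
  exact Submodule.iSup_induction _ (motive := Q) e h (h 0 0 (zero_mem _)) add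

theorem gr_int : DirectSum.IsInternal (gr A M) := by
  refine (DirectSum.isInternal_submodule_iff_iSupIndep_and_iSup_eq_top _).2 ⟨?_, ?_⟩
  · have h := (Module.End.eigenspaces_iSupIndep ((oN A M).restrictScalars ℂ)).comp
      (f := fun m : ℤ => -(m : ℂ)) fun a b h => Int.cast_injective (neg_injective h)
    exact h.mono fun m p hp => Module.End.mem_eigenspace_iff.2 hp.1
  · exact eq_top_iff.2 fun p _ => gr_ind (A := A) (Q := fun p => p ∈ ⨆ m, gr A M m)
      (fun m p hp => Submodule.mem_iSup_of_mem m hp) (fun _ _ => add_mem) p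

end Gh

end

end Vale.Agent.P286EX
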