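import Vale.Agent.P286E5.SL
import Vale.Agent.P286EI.L3

/-!
# The gauge family of a family with an infinitesimal action
-/

set_option linter.all false

namespace Vale.Agent.P286EX

open CategoryTheory Matrix TensorProduct Vale.Agent.P286 Vale.Agent.P286.St Vale.Agent.P286.H847
  Vale.Agent.P286.H710 Vale.Agent.P286E Vale.Agent.P286EI Vale.Agent.P286EI.L3

noncomputable section

namespace Gl

variable {A B M N P : Type} [CommRing A] [CommRing B] [AddCommGroup M] [AddCommGroup N]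
  [AddCommGroup P] [Module A M] [Module B N]

variable (A M) in
theorem vind {Q : L3 M → Prop} (h0 : ∀ z, Q (L3.inl A M z)) (h1 : ∀ a x, Q x → Q (wg A M a x))
    (add : ∀ x y, Q x → Q y → Q (x + y)) (x : L3 M) : Q x := L3.ind A h0 h1 add x

theorem mem_ind {Q : ℤ → L3 M → Prop} (h0 : ∀ z, Q 0 (L3.inl A M z))
    (h1 : ∀ a m x, Q m x → Q (m - 1) (wg A M a x)) (add : ∀ m x y, Q m x → Q m y → Q m (x + y))
    (zero : ∀ m, Q m 0) {m : ℤ} {x : L3 M} (h : x ∈ L3.gr A M m) : Q m x := by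
  have e1 := fun a z => h1 a _ _ (h0 z)
  have e2 := fun a b z => h1 a _ _ (e1 b z)
  rcases gr_cases h with ⟨rfl, e⟩ | ⟨rfl, e⟩ | ⟨rfl, e⟩ | ⟨rfl, e⟩ | rfl
  · rw [e]; exact h0 _
  · rw [e, dec (R := A) ⟨0, x.v, 0, 0⟩]
    simp only [Pi.zero_apply, map_zero, zero_add, add_zero]
    exact add _ _ _ (add _ _ _ (e1 _ _) (e1 _ _)) (e1 _ _)
  · rw [e, dec (R := A) ⟨0, 0, x.w, 0⟩]
    simp only [Pi.zero_apply, map_zero, zero_add, add_zero]
    exact add _ _ _ (add _ _ _ (e2 _ _ _) (e2 _ _ _)) (e2 _ _ _)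
  · rw [e, dec (R := A) ⟨0, 0, 0, x.t⟩]
    simp only [Pi.zero_apply, map_zero, zero_add, add_zero]
    exact h1 _ _ _ (e2 _ _ _)
  · exact zero m

theorem gr_int [Module ℂ M] : DirectSum.IsInternal (L3.gr ℂ M) := by
  refine (DirectSum.isInternal_submodule_iff_iSupIndep_and_iSup_eq_top _).2 ⟨fun m => ?_, ?_⟩
  · refine Submodule.disjoint_def.2 fun x hx h => (pr_self hx).symm.trans ?_
    have : (⨆ n, ⨆ (_ : n ≠ m), L3.gr ℂ M n) ≤ LinearMap.ker (pr ℂ M m) :=
      iSup₂_le fun n hn y hy => pr_ne hn hy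
    exact this h
  · refine eq_top_iff.2 fun x _ => ?_
    rw [pr_sum (R := ℂ) x]
    have e := fun m => Submodule.mem_iSup_of_mem (p := L3.gr ℂ M) m (pr_mem m x)
    exact add_mem (add_mem (add_mem (e _) (e _)) (e _)) (e _)

theorem wg_sq (a : Fin 3) (x : L3 M) : wg A M a (wg A M a x) = 0 := by
  fin_cases a <;> refine ext8 ?_ ?_ ?_ ?_ ?_ ?_ ?_ ?_ <;> simp [wg_apply, cx_apply]

section Lift

variable [Module A P] (h : Fin 3 → P →ₗ[A] P) (f : M →ₗ[A] P)

/-- The map `z i_S ↦ h_S (f z)`. -/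
def lift : L3 M →ₗ[A] P :=
  f ∘ₗ ps A M + (h 0 ∘ₗ f ∘ₗ pv A M 0 + h 1 ∘ₗ f ∘ₗ pv A M 1 + h 2 ∘ₗ f ∘ₗ pv A M 2) +
    (h 1 ∘ₗ h 2 ∘ₗ f ∘ₗ pw A M 0 + h 2 ∘ₗ h 0 ∘ₗ f ∘ₗ pw A M 1 + h 0 ∘ₗ h 1 ∘ₗ f ∘ₗ pw A M 2) +
    h 0 ∘ₗ h 1 ∘ₗ h 2 ∘ₗ f ∘ₗ pt A M

theorem lift_apply (x : L3 M) : lift h f x =
    f x.s + (h 0 (f (x.v 0)) + h 1 (f (x.v 1)) + h 2 (f (x.v 2))) +
      (h 1 (h 2 (f (x.w 0))) + h 2 (h 0 (f (x.w 1))) + h 0 (h 1 (f (x.w 2)))) +
      h 0 (h 1 (h 2 (f x.t))) := rfl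

theorem lift_inl (z : M) : lift h f (L3.inl A M z) = f z := by simp [lift_apply, inl_apply]

theorem lift_wg (h1 : ∀ a b x, h a (h b x) = -h b (h a x)) (h2 : ∀ a x, h a (h a x) = 0)
    (a : Fin 3) (x : L3 M) : lift h f (wg A M a x) = h a (lift h f x) := by
  fin_cases a <;> simp [lift_apply, wg_apply, cx_apply, h1 1 0, h1 2 0, h1 2 1, h2, add_comm]

end Lift

variable [Algebra ℂ A] [Algebra ℂ B] [Module ℂ M] [Module ℂ N] [IsScalarTower ℂ A M]
  [IsScalarTower ℂ B N]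

/-- A combination of the wedge operators. -/
def wc (N : Type) [AddCommGroup N] [Module B N] (g : Matrix (Fin 3) (Fin 3) B) (b : Fin 3) :
    L3 N →ₗ[B] L3 N := ∑ a, g a b • wg B N a

theorem wc_apply (g : Matrix (Fin 3) (Fin 3) B) (b : Fin 3) (x : L3 N) :
    wc N g b x = ∑ a, g a b • wg B N a x := by
  simp only [wc, LinearMap.sum_apply, LinearMap.smul_apply]

theorem wc_wc (g : Matrix (Fin 3) (Fin 3) B) (a b : Fin 3) (x : L3 N) :
    wc N g a (wc N g b x) = -wc N g b (wc N g a x) := by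
  simp only [wc_apply, Fin.sum_univ_three, map_add, map_smul, wg_wg 1 0, wg_wg 2 0, wg_wg 2 1, wg_sq]
  module

theorem wc_sq (g : Matrix (Fin 3) (Fin 3) B) (a : Fin 3) (x : L3 N) :
    wc N g a (wc N g a x) = 0 := by
  simp only [wc_apply, Fin.sum_univ_three, map_add, map_smul, wg_wg 1 0, wg_wg 2 0, wg_wg 2 1, wg_sq]
  module

/-- The transition map with the matrix `g` on the ghosts. -/
def tt (g : Matrix (Fin 3) (Fin 3) B) (t : M →ₗ[ℂ] N) : L3 M →ₗ[ℂ] L3 N :=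
  lift (fun b => (wc N g b).restrictScalars ℂ) (L3.inl ℂ N ∘ₗ t)

theorem tt_inl (g : Matrix (Fin 3) (Fin 3) B) (t : M →ₗ[ℂ] N) (z : M) :
    tt g t (L3.inl A M z) = L3.inl B N (t z) := lift_inl _ _ z

theorem tt_wg (g : Matrix (Fin 3) (Fin 3) B) (t : M →ₗ[ℂ] N) (b : Fin 3) (x : L3 M) :
    tt g t (wg A M b x) = ∑ a, g a b • wg B N a (tt g t x) :=
  (lift_wg (fun b => (wc N g b).restrictScalars ℂ) _ (wc_wc g) (wc_sq g) b x).trans
    (wc_apply g b _)

attribute [irreducible] tt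

theorem tt_mem (g : Matrix (Fin 3) (Fin 3) B) (t : M →ₗ[ℂ] N) {m : ℤ} {x : L3 M}
    (h : x ∈ L3.gr A M m) : tt g t x ∈ L3.gr B N m :=
  mem_ind (A := A) (Q := fun m x => tt g t x ∈ L3.gr B N m)
    (fun z => by rw [tt_inl, ← sgl_empty]; exact sgl_mem (R := B) ∅ _)
    (fun a m x hx => by
      rw [tt_wg]; exact sum_mem fun b _ => Submodule.smul_mem _ _ (wg_mem b hx))
    (fun m x y hx hy => by rw [map_add]; exact add_mem hx hy)
    (fun m => by rw [map_zero]; exact zero_mem _) h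

theorem tt_one (t : M →ₗ[ℂ] N) (x : L3 M) : tt (1 : Matrix (Fin 3) (Fin 3) B) t x = map t x := by
  induction x using vind ℂ M with
  | h0 z => rw [tt_inl, map_inl]; rfl
  | h1 a x hx => rw [tt_wg, map_wg, hx]; simp [one_apply]; rfl
  | add x y hx hy => rw [map_add, map_add, hx, hy]

/-- The connection on the components. -/
def fc (C : H710.FC ℂ A M) : H710.FC ℂ A (L3 M) where
  act v := map (fcL C v)
  act_add v := map_add _
  add_act v w x := L3.ext (C.add_act v w _) (funext fun a => C.add_act v w _)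
    (funext fun a => C.add_act v w _) (C.add_act v w _)
  smul_act a v x := L3.ext (C.smul_act a v _) (funext fun _ => C.smul_act a v _)
    (funext fun _ => C.smul_act a v _) (C.smul_act a v _)
  leibniz v a x := L3.ext (C.leibniz v a _) (funext fun _ => C.leibniz v a _)
    (funext fun _ => C.leibniz v a _) (C.leibniz v a _)
  lie_act v w x := L3.ext (C.lie_act v w _) (funext fun _ => C.lie_act v w _)
    (funext fun _ => C.lie_act v w _) (C.lie_act v w _)

theorem fc_inl (C : H710.FC ℂ A M) (v : Derivation ℂ A A) (z : M) :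
    fcL (fc C) v (L3.inl A M z) = L3.inl A M (C.act v z) := map_inl (fcL C v) z

theorem fc_wg (C : H710.FC ℂ A M) (v : Derivation ℂ A A) (a : Fin 3) (x : L3 M) :
    fcL (fc C) v (wg A M a x) = wg A M a (fcL (fc C) v x) := map_wg (fcL C v) a x

theorem fc_smul (C : H710.FC ℂ A M) (v : Derivation ℂ A A) (a : A) (x : M) :
    fcL C v (a • x) = v a • x + a • fcL C v x := C.leibniz v a x

/-- The differential `d` and the total action `L` for the action `l`. -/
structure CE (κ : ℂ) (l : Fin 3 → M →ₗ[A] M) where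
  d : L3 M →ₗ[A] L3 M
  L : Fin 3 → L3 M →ₗ[A] L3 M
  d_inl : ∀ z, d (L3.inl A M z) = 0
  d_wg : ∀ a x, d (wg A M a x) = L a x - wg A M a (d x)
  L_inl : ∀ a z, L a (L3.inl A M z) = L3.inl A M (l a z)
  L_wg : ∀ a b x, L a (wg A M b x) = wg A M b (L a x) + ∑ c, (κ * eps a b c) • wg A M c x
  dd : ∀ x, d (d x) = 0
  d_mem : ∀ m, ∀ x ∈ L3.gr A M m, d x ∈ L3.gr A M (m + 1)

variable {κ : ℂ} {l : Fin 3 → M →ₗ[A] M} {l' : Fin 3 → N →ₗ[B] N} (c : CE κ l) (c' : CE κ l')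

theorem CE.L_act {C : H710.FC ℂ A M} (h : ∀ a v x, l a (C.act v x) = C.act v (l a x)) (a : Fin 3)
    (v : Derivation ℂ A A) (x : L3 M) : c.L a (fcL (fc C) v x) = fcL (fc C) v (c.L a x) := by
  induction x using vind A M with
  | h0 z => rw [fc_inl, c.L_inl, c.L_inl, fc_inl, h]
  | h1 b x hx => simp only [fc_wg, c.L_wg, hx, map_add, map_sum, map_smul]
  | add x y hx hy => simp only [map_add, hx, hy]

theorem CE.d_act {C : H710.FC ℂ A M} (h : ∀ a v x, l a (C.act v x) = C.act v (l a x))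
    (v : Derivation ℂ A A) (x : L3 M) : c.d (fcL (fc C) v x) = fcL (fc C) v (c.d x) := by
  induction x using vind A M with
  | h0 z => rw [fc_inl, c.d_inl, c.d_inl, map_zero]
  | h1 b x hx => simp only [fc_wg, c.d_wg, hx, map_sub, c.L_act h]
  | add x y hx hy => simp only [map_add, hx, hy]

/-- The complex. -/
abbrev CE.K (C : H710.FC ℂ A M) (h : ∀ a v x, l a (C.act v x) = C.act v (l a x)) : H697.DGM A where
  M := ⟨L3 M, c.d.restrictScalars ℂ, c.dd, L3.gr ℂ M, c.d_mem⟩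
  C := fc C
  d_smul a x := map_smul c.d a x
  d_act := c.d_act h
  gr_smul m a x hx := (L3.gr A M m).smul_mem a hx
  gr_act m v x hx := map_mem (fcL C v) hx

variable {g : Matrix (Fin 3) (Fin 3) B} {t : M →ₗ[ℂ] N}
  (hg : ∀ a b d : Fin 3, ∑ c, eps a b c • g d c = ∑ a', ∑ b', eps a' b' d • (g a' a * g b' b))
  (ht : ∀ b x, t (l b x) = ∑ a, g a b • l' a (t x))

include hg ht in
theorem CE.tt_L (b : Fin 3) (x : L3 M) : tt g t (c.L b x) = ∑ a, g a b • c'.L a (tt g t x) := by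
  induction x using vind A M with
  | h0 z => simp only [c.L_inl, tt_inl, ht, c'.L_inl, map_sum, map_smul]
  | add x y hx hy => simp only [map_add, hx, hy, smul_add, Finset.sum_add_distrib]
  | h1 e x hx =>
    have h : ∑ f, (κ * eps b e f) • ∑ a, g a f • wg B N a (tt g t x) =
        ∑ a, g a b • ∑ a', g a' e • ∑ f, (κ * eps a a' f) • wg B N f (tt g t x) := by
      have h1 : ∀ d, ∑ f, (κ * eps b e f) • g d f =
          ∑ a, ∑ a', (κ * eps a a' d) • (g a b * g a' e) := fun d => by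
        simp only [mul_smul, ← Finset.smul_sum, hg]
      simp only [Finset.smul_sum, ← smul_assoc]
      rw [Finset.sum_comm]
      simp only [← Finset.sum_smul, h1]
      simp only [Finset.sum_smul]
      rw [Finset.sum_comm]
      refine Finset.sum_congr rfl fun a _ => ?_
      rw [Finset.sum_comm]
      refine Finset.sum_congr rfl fun a' _ => Finset.sum_congr rfl fun f _ => ?_
      simp only [smul_assoc, mul_smul, smul_comm (g _ _) (_ : ℂ)]
    simp only [c.L_wg, map_add, map_sum, map_smul, tt_wg, hx, h, c'.L_wg, smul_add,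
      Finset.sum_add_distrib]
    refine congrArg (· + _) ?_
    simp only [Finset.smul_sum]
    rw [Finset.sum_comm]
    exact Finset.sum_congr rfl fun _ _ => Finset.sum_congr rfl fun _ _ => smul_comm _ _ _

include hg ht in
theorem CE.tt_d (x : L3 M) : tt g t (c.d x) = c'.d (tt g t x) := by
  induction x using vind A M with
  | h0 z => rw [c.d_inl, tt_inl, c'.d_inl, map_zero]
  | add x y hx hy => simp only [map_add, hx, hy]
  | h1 e x hx =>
    simp only [c.d_wg, map_sub, c.tt_L c' hg ht, tt_wg, hx, map_sum, map_smul, c'.d_wg, smul_sub,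
      Finset.sum_sub_distrib]

end Gl

open Gl

variable {T : TSite} {S : GS T} (L : SL S) (hS : S.Ok) (c : ∀ X, CE S.κ (L.l X))

namespace SL

/-- The complexes. -/
abbrev gK (X : T.C) : H697.DGM (T.R X) := (c X).K (L.C X) (L.l_act X)

theorem lie_gK (X : T.C) (a : Fin 3) (x : L3 (L.M X)) :
    lieOp (L.gK c X) (wg (T.R X) (L.M X) a) x = (c X).L a x :=
  (congrArg (· + _) ((c X).d_wg a x)).trans (sub_add_cancel _ _)

theorem tt_smul {X Y : T.C} (φ : X ⟶ Y) (a : T.R X) (x : L3 (L.M X)) :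
    tt (S.ad φ) (L.t φ) (a • x) = T.f φ a • tt (S.ad φ) (L.t φ) x := by
  induction x using vind (T.R X) (L.M X) with
  | h0 z => rw [← map_smul, tt_inl, tt_inl, L.t_smul, map_smul]
  | add x y hx hy => simp only [smul_add, map_add, hx, hy]
  | h1 e x hx =>
    rw [← map_smul, tt_wg, tt_wg, hx, Finset.smul_sum]
    simp only [map_smul, smul_comm (T.f φ a)]

theorem tt_comp {X Y Z : T.C} (φ : X ⟶ Y) (ψ : Y ⟶ Z) (x : L3 (L.M X)) :
    tt (S.ad (φ ≫ ψ)) (L.t (φ ≫ ψ)) x = tt (S.ad ψ) (L.t ψ) (tt (S.ad φ) (L.t φ) x) := by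
  induction x using vind (T.R X) (L.M X) with
  | h0 z => rw [tt_inl, tt_inl, tt_inl, L.t_comp]
  | add x y hx hy => simp only [map_add, hx, hy]
  | h1 e x hx =>
    have h : ∀ a, S.ad (φ ≫ ψ) a e = ∑ b, T.f ψ (S.ad φ b e) * S.ad ψ a b := fun a => by
      rw [S.ad_comp, Matrix.mul_apply]
      exact Finset.sum_congr rfl fun b _ => mul_comm _ _
    rw [tt_wg, tt_wg, hx, map_sum]
    simp only [L.tt_smul, tt_wg, h, Finset.sum_smul, Finset.smul_sum, mul_smul]
    rw [Finset.sum_comm]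

include hS in
theorem tt_act {X Y : T.C} (φ : X ⟶ Y) (w : Derivation ℂ (T.R Y) (T.R Y)) (n : ℕ)
    (k : Fin n → T.R Y) (v : Fin n → Derivation ℂ (T.R X) (T.R X))
    (h : ∀ a, w (T.f φ a) = ∑ j, k j * T.f φ (v j a)) (x : L3 (L.M X)) :
    fcL (fc (L.C Y)) w (tt (S.ad φ) (L.t φ) x) =
      ∑ j, k j • tt (S.ad φ) (L.t φ) (fcL (fc (L.C X)) (v j) x) -
      (algebraMap ℂ (T.R Y) T.s * Ring.inverse (T.dl φ) * w (T.dl φ)) • tt (S.ad φ) (L.t φ) x +
      ∑ a, w.liftKaehlerDifferential (S.th φ a) • (c Y).L a (tt (S.ad φ) (L.t φ) x) := by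
  induction x using vind (T.R X) (L.M X) with
  | h0 z =>
    simp only [tt_inl, fc_inl, (c Y).L_inl, L.t_act φ w n k v h, map_add, map_sub, map_sum,
      map_smul]
  | add x y hx hy =>
    simp only [map_add, hx, hy, smul_add, Finset.sum_add_distrib]
    abel
  | h1 e x hx =>
    obtain ⟨θ, hθ⟩ : ∃ θ : Fin 3 → T.R Y, ∀ a, w.liftKaehlerDifferential (S.th φ a) = θ a :=
      ⟨_, fun _ => rfl⟩
    obtain ⟨y, hy⟩ : ∃ y, tt (S.ad φ) (L.t φ) x = y := ⟨_, rfl⟩
    have h1 : ∑ f, w (S.ad φ f e) • wg (T.R Y) _ f y =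
        ∑ b, θ b • ∑ a, S.ad φ a e • ∑ f, (S.κ * eps b a f) • wg (T.R Y) _ f y := by
      simp only [hS.der, hθ, Finset.mul_sum, Finset.sum_smul, Finset.smul_sum]
      rw [Finset.sum_comm]
      refine Finset.sum_congr rfl fun b _ => ?_
      rw [Finset.sum_comm]
      refine Finset.sum_congr rfl fun a _ => Finset.sum_congr rfl fun f _ => ?_
      rw [mul_smul, smul_assoc, smul_comm (S.ad φ a e)]
    simp only [hθ, hy] at hx
    simp only [tt_wg, fc_wg, map_sum, fc_smul, hθ, hy, hx, map_add, map_sub, map_smul, h1,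
      (c Y).L_wg, smul_add, smul_sub, Finset.sum_add_distrib, Finset.sum_sub_distrib]
    simp only [Finset.smul_sum, smul_comm (S.ad φ _ e)]
    rw [Finset.sum_comm (f := fun a j => k j • _),
      Finset.sum_comm (f := fun a b => θ b • S.ad φ a e • wg _ _ a _)]
    abel

/-- The transition maps. -/
def gT {X Y : T.C} (φ : X ⟶ Y) : GD.Hom (L.gK c X).M (L.gK c Y).M :=
  ⟨tt (S.ad φ) (L.t φ), (c X).tt_d (c Y) (hS.ad_eps φ) (L.t_l φ),
    fun m x hx => mem_gr.2 (mem_gr.1 (tt_mem (A := ℂ) (S.ad φ) (L.t φ) hx))⟩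

theorem gT_f {X Y : T.C} (φ : X ⟶ Y) (x : L3 (L.M X)) :
    (L.gT hS c φ).f x = tt (S.ad φ) (L.t φ) x := rfl

theorem gK_act (X : T.C) (v : Derivation ℂ (T.R X) (T.R X)) (x : L3 (L.M X)) :
    (L.gK c X).C.act v x = fcL (fc (L.C X)) v x := rfl

theorem tt_id (X : T.C) (x : L3 (L.M X)) : tt (S.ad (𝟙 X)) (L.t (𝟙 X)) x = x := by
  rw [S.ad_id, tt_one, L3.map_apply]
  simp only [L.t_id]

/-- The gauge family. -/
def hg' : HG S where
  K := L.gK c
  i X := wg (T.R X) (L.M X)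
  i_gr X a m x := wg_mem (R := ℂ) a
  i_act X a v x := (fc_wg (L.C X) v a x).symm
  i_i X := wg_wg
  i_br X a b x := by rw [lie_gK, lie_gK, (c X).L_wg, add_sub_cancel_left]
  t := L.gT hS c
  t_smul := L.tt_smul
  t_id := L.tt_id
  t_comp := L.tt_comp
  t_i φ b x := tt_wg _ _ b x
  t_act {X Y} φ w n k v h x := (L.tt_act hS c φ w n k v h x).trans (congrArg _
    (Finset.sum_congr rfl fun a _ => congrArg _ (L.lie_gK c Y a _).symm))

theorem hg'_lie (X : T.C) (a : Fin 3) (x : L3 (L.M X)) :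
    lieOp ((L.hg' hS c).K X) ((L.hg' hS c).i X a) x = (c X).L a x := L.lie_gK c X a x

theorem hg'_d (X : T.C) (x : L3 (L.M X)) : ((L.hg' hS c).K X).M.d x = (c X).d x := rfl

theorem hg'_i (X : T.C) (a : Fin 3) (x : L3 (L.M X)) :
    (L.hg' hS c).i X a x = wg (T.R X) (L.M X) a x := rfl

theorem hg'_act (X : T.C) (v : Derivation ℂ (T.R X) (T.R X)) (x : L3 (L.M X)) :
    ((L.hg' hS c).K X).C.act v x = L3.map (fcL (L.C X) v) x := rfl

theorem hg'_gr (X : T.C) (m : ℤ) : ((L.hg' hS c).K X).M.gr m = L3.gr ℂ (L.M X) m := rfl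

theorem hg'_t {X Y : T.C} (φ : X ⟶ Y) (x : L3 (L.M X)) :
    ((L.hg' hS c).t φ).f x = tt (S.ad φ) (L.t φ) x := rfl

theorem hg'_t_inl {X Y : T.C} (φ : X ⟶ Y) (z : L.M X) :
    ((L.hg' hS c).t φ).f (L3.inl (T.R X) _ z) = L3.inl (T.R Y) _ (L.t φ z) := tt_inl _ _ z

theorem hg'_t_one {X Y : T.C} (φ : X ⟶ Y) (h : S.ad φ = 1) (x : L3 (L.M X)) :
    ((L.hg' hS c).t φ).f x = L3.map (L.t φ) x := by rw [hg'_t, h, tt_one]

theorem hg'_int (X : T.C) : DirectSum.IsInternal ((L.hg' hS c).K X).M.gr := gr_int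

end SL

end

end Vale.Agent.P286EX
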